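import Vale.Agent.P011UG12.Gen
import Vale.Agent.P011UGB4.Defs
import Vale.Agent.P011UI.Exa

/-!
The simply connected group of type `B₂` is the symplectic group.
-/

set_option autoImplicit false
set_option linter.all false

namespace Vale.Agent.P011UG12

open Matrix Vale.Agent.P011L Vale.Agent.P183CH Vale.Agent.P183CH.Chev Vale.Agent.P011U
  Vale.Agent.P011UGB4

variable {K : Type} [Field K]

/-- the weights -/
def mu : Fin 2 → Fin 4 → ℤ := ![![0, 0, 1, -1], ![1, -1, -1, 1]]

theorem minB : P011UH.Min (CartanMatrix.B 2) eB fB mu where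
  ee := by decide
  ff := by decide
  ef := by decide
  ef' := by decide
  he i a b c j := by
    refine Or.resolve_left ?_ c
    clear c
    fin_cases i <;> fin_cases j <;> fin_cases a <;> fin_cases b <;> decide
  hf i a b c j := by
    refine Or.resolve_left ?_ c
    clear c
    fin_cases i <;> fin_cases j <;> fin_cases a <;> fin_cases b <;> decide
  sc := by
    refine eq_top_iff.2 fun v _ => ?_
    have : v = (v 0 + v 1) • (fun i => mu i 0) + v 0 • fun i => mu i 2 := by
      funext i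
      fin_cases i <;> simp [mu]
    rw [this]
    exact add_mem (Submodule.smul_mem _ _ (Submodule.subset_span ⟨0, rfl⟩))
      (Submodule.smul_mem _ _ (Submodule.subset_span ⟨2, rfl⟩))

theorem e0 (t : K) : 1 + t • (eB 0).map (Int.cast : ℤ → K) = X t := by
  ext i j
  fin_cases i <;> fin_cases j <;> simp [eB, X]

theorem e1 (t : K) : 1 + t • (eB 1).map (Int.cast : ℤ → K) = U t 0 0 := by
  ext i j
  fin_cases i <;> fin_cases j <;> simp [eB, U]

theorem tr (i : Fin 2) (t : K) : 1 + t • (fB i).map (Int.cast : ℤ → K) =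
    (1 + t • (eB i).map (Int.cast : ℤ → K))ᵀ := by
  rw [transpose_add, transpose_one, transpose_smul, fB, transpose_map]

theorem S.unit {M : M4 K} (h : S M) : IsUnit M := by
  have a : J K * -J K = 1 := by
    ext i j
    fin_cases i <;> fin_cases j <;> simp [J, mul_apply, Fin.sum_univ_four]
  have b : -J K * (Mᵀ * J K) * M = 1 := by
    rw [Matrix.mul_assoc, h, mul_eq_one_comm, a]
  exact ⟨⟨M, _, mul_eq_one_comm.1 b, b⟩, rfl⟩

theorem genB [Infinite K] : P011UH.gen K eB fB = Sp4 K := by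
  refine le_antisymm ((Subgroup.closure_le _).2 ?_) fun g hg => ?_
  · rintro g ⟨i, t, c⟩
    show S g.1
    fin_cases i <;> rcases c with c | c <;> rw [c]
    · exact e0 t ▸ S_X t
    · exact (tr 0 t).trans (congrArg _ (e0 t)) ▸ S_X' t
    · exact e1 t ▸ S_U t 0 0
    · exact (tr 1 t).trans (congrArg _ (e1 t)) ▸ S_U' t 0 0
  obtain ⟨g', a, b⟩ := gen (P := fun M => ∃ g ∈ P011UH.gen K eB fB, g.1 = M)
    (fun ⟨a, a1, a2⟩ ⟨b, b1, b2⟩ => ⟨a * b, mul_mem a1 b1, a2 ▸ b2 ▸ rfl⟩)
    (fun t => ⟨(S_X t).unit.unit, Subgroup.subset_closure ⟨0, t, Or.inl (e0 t).symm⟩, rfl⟩)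
    (fun t => ⟨(S_X' t).unit.unit, Subgroup.subset_closure
      ⟨0, t, Or.inr ((tr 0 t).trans (congrArg _ (e0 t))).symm⟩, rfl⟩)
    (fun t => ⟨(S_U t 0 0).unit.unit, Subgroup.subset_closure ⟨1, t, Or.inl (e1 t).symm⟩, rfl⟩)
    (fun t => ⟨(S_U' t 0 0).unit.unit, Subgroup.subset_closure
      ⟨1, t, Or.inr ((tr 1 t).trans (congrArg _ (e1 t))).symm⟩, rfl⟩) g.1 hg
  exact (Units.ext b : g' = g) ▸ a

theorem sp : SP := by
  intro D hD ε hε K _ _
  rw [← genB]
  obtain ⟨ψ, -, h2⟩ := P011UI.recH D hD _ _ _ _ _ _ ε (fun i j => (hε i j).symm) minB K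
  exact ⟨ψ, fun i u => ⟨(h2 _ i u).1 (congrArg Units.val (GG_e i u)),
    (h2 _ i u).2 (congrArg Units.val (GG_f i u))⟩⟩

end Vale.Agent.P011UG12
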