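import Mathlib.LinearAlgebra.Matrix.Notation
import Mathlib.Algebra.BigOperators.Fin
import Mathlib.Data.Set.Finite.Basic
import Mathlib.Tactic.FieldSimp
import Mathlib.Tactic.FinCases
import Mathlib.Tactic.LinearCombination

/-!
The symplectic group of rank two is generated by the simple root elements and their transposes.
-/

set_option autoImplicit false
set_option linter.all false

namespace Vale.Agent.P011UG12

open Matrix

variable {K : Type} [Field K]

/-- square matrices of size four -/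
abbrev M4 (K : Type) := Matrix (Fin 4) (Fin 4) K

/-- the alternating form -/
def J (K : Type) [Field K] : M4 K := !![0, 1, 0, 0; -1, 0, 0, 0; 0, 0, 0, 1; 0, 0, -1, 0]

/-- symplectic matrices -/
def S (M : M4 K) : Prop := Mᵀ * J K * M = J K

/-- the long simple root element -/
def X (t : K) : M4 K := !![1, 0, 0, 0; 0, 1, 0, 0; 0, 0, 1, t; 0, 0, 0, 1]

/-- the Heisenberg group -/
def U (x z w : K) : M4 K := !![1, w, x, z; 0, 1, 0, 0; 0, z, 1, 0; 0, -x, 0, 1]

theorem S.mul {A B : M4 K} (a : S A) (b : S B) : S (A * B) := by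
  unfold S at *
  rw [transpose_mul, Matrix.mul_assoc, Matrix.mul_assoc, ← Matrix.mul_assoc (J K),
    ← Matrix.mul_assoc Aᵀ, ← Matrix.mul_assoc Aᵀ, a, ← Matrix.mul_assoc, b]

theorem S.eq {M : M4 K} (h : S M) (i j : Fin 4) :
    M 0 i * M 1 j - M 1 i * M 0 j + M 2 i * M 3 j - M 3 i * M 2 j = J K i j := by
  rw [← show (Mᵀ * J K * M) i j = J K i j from congrFun (congrFun h i) j]
  simp [mul_apply, Fin.sum_univ_four, J]
  ring

theorem S_of {M : M4 K} (h : ∀ i j,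
    M 0 i * M 1 j - M 1 i * M 0 j + M 2 i * M 3 j - M 3 i * M 2 j = J K i j) : S M := by
  ext i j
  rw [← h]
  simp [mul_apply, Fin.sum_univ_four, J]
  ring

theorem S_X (t : K) : S (X t) := S_of fun i j => by
  fin_cases i <;> fin_cases j <;> simp [X, J]

theorem S_X' (t : K) : S (X t)ᵀ := S_of fun i j => by
  fin_cases i <;> fin_cases j <;> simp [X, J]

theorem S_U (x z w : K) : S (U x z w) := S_of fun i j => by
  fin_cases i <;> fin_cases j <;> simp [U, J, mul_comm]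

theorem S_U' (x z w : K) : S (U x z w)ᵀ := S_of fun i j => by
  fin_cases i <;> fin_cases j <;> simp [U, J, mul_comm]

theorem X_row (t : K) (M : M4 K) (j : Fin 4) : (X t * M) 0 j = M 0 j ∧ (X t * M) 1 j = M 1 j ∧
    (X t * M) 2 j = M 2 j + t * M 3 j ∧ (X t * M) 3 j = M 3 j := by
  simp [mul_apply, Fin.sum_univ_four, X]

theorem X_row' (t : K) (M : M4 K) (j : Fin 4) :
    ((X t)ᵀ * M) 0 j = M 0 j ∧ ((X t)ᵀ * M) 1 j = M 1 j ∧
    ((X t)ᵀ * M) 2 j = M 2 j ∧ ((X t)ᵀ * M) 3 j = t * M 2 j + M 3 j := by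
  simp [mul_apply, Fin.sum_univ_four, X]

theorem U_row (x z w : K) (M : M4 K) (j : Fin 4) :
    (U x z w * M) 0 j = M 0 j + w * M 1 j + x * M 2 j + z * M 3 j ∧ (U x z w * M) 1 j = M 1 j ∧
    (U x z w * M) 2 j = z * M 1 j + M 2 j ∧ (U x z w * M) 3 j = -x * M 1 j + M 3 j := by
  simp [mul_apply, Fin.sum_univ_four, U]

theorem U_row' (x z w : K) (M : M4 K) (j : Fin 4) : ((U x z w)ᵀ * M) 0 j = M 0 j ∧
    ((U x z w)ᵀ * M) 1 j = w * M 0 j + M 1 j + z * M 2 j + -x * M 3 j ∧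
    ((U x z w)ᵀ * M) 2 j = x * M 0 j + M 2 j ∧ ((U x z w)ᵀ * M) 3 j = z * M 0 j + M 3 j := by
  simp [mul_apply, Fin.sum_univ_four, U]

theorem ext4 {A B : M4 K} (h : ∀ j, A 0 j = B 0 j ∧ A 1 j = B 1 j ∧ A 2 j = B 2 j ∧ A 3 j = B 3 j) :
    A = B := by
  ext i j
  fin_cases i
  exacts [(h j).1, (h j).2.1, (h j).2.2.1, (h j).2.2.2]

theorem U_mul (x z w x' z' w' : K) :
    U x z w * U x' z' w' = U (x + x') (z + z') (w + w' + x * z' - z * x') := ext4 fun j => by
  obtain ⟨a, b, c, d⟩ := U_row x z w (U x' z' w') j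
  rw [a, b, c, d]
  fin_cases j <;> refine ⟨?_, ?_, ?_, ?_⟩ <;> simp [U] <;> ring

theorem U_congr {P : M4 K → Prop} {x z w x' z' w' : K} (h : P (U x z w)) (a : x = x') (b : z = z')
    (c : w = w') : P (U x' z' w') := a ▸ b ▸ c ▸ h

theorem U_zero : U (0 : K) 0 0 = 1 := by
  ext i j
  fin_cases i <;> fin_cases j <;> simp [U]

theorem U_inv (x z w : K) : U (-x) (-z) (-w) * U x z w = 1 := by
  rw [U_mul, ← U_zero]
  congr 1 <;> ring

theorem U_inv' (x z w : K) : (U (-x) (-z) (-w))ᵀ * (U x z w)ᵀ = 1 := by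
  rw [← transpose_mul, U_mul, ← transpose_one, ← U_zero]
  congr 2 <;> ring

theorem X_mul (s t : K) : X s * X t = X (s + t) := ext4 fun j => by
  obtain ⟨a, b, c, d⟩ := X_row s (X t) j
  rw [a, b, c, d]
  fin_cases j <;> simp [X, add_comm]

theorem X_zero : X (0 : K) = 1 := by
  ext i j
  fin_cases i <;> fin_cases j <;> simp [X]

theorem X_inv' (t : K) : (X (-t))ᵀ * (X t)ᵀ = 1 := by
  rw [← transpose_mul, X_mul, add_neg_cancel, X_zero, transpose_one]

theorem X_U (u t : K) : X u * U t 0 0 = U t (-(t * u)) 0 * X u := ext4 fun j => by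
  obtain ⟨a, b, c, d⟩ := X_row u (U t 0 0) j
  obtain ⟨a', b', c', d'⟩ := U_row t (-(t * u)) 0 (X u) j
  rw [a, b, c, d, a', b', c', d']
  fin_cases j <;> simp [X, U, mul_comm]

theorem up [Infinite K] {P : M4 K → Prop} (hm : ∀ {A B}, P A → P B → P (A * B))
    (x0 : ∀ t, P (X t)) (x1 : ∀ t, P (U t 0 0)) (x z w : K) : P (U x z w) := by
  have h1 : ∀ t u : K, P (U 0 (t * u) (t * t * u)) := fun t u => by
    have := hm (hm (hm (x0 (-u)) (x1 t)) (x0 u)) (x1 (-t))
    rw [X_U, Matrix.mul_assoc _ (X (-u)), X_mul, neg_add_cancel, X_zero, Matrix.mul_one,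
      U_mul] at this
    exact U_congr this (by ring) (by ring) (by ring)
  classical
  obtain ⟨c, hc⟩ := Infinite.exists_notMem_finset ({0, 1} : Finset K)
  have c0 : c ≠ 0 := fun e => hc (by simp [e])
  have c1 : c - 1 ≠ 0 := fun e => hc (by simp [sub_eq_zero.1 e])
  have h2 : ∀ s : K, P (U 0 0 s) := fun s => by
    have := hm (h1 c (s / (c * (c - 1)))) (h1 1 (-(c * (s / (c * (c - 1))))))
    rw [U_mul] at this
    exact U_congr this (by ring) (by ring) (by field_simp; ring)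
  have := hm (hm (x1 x) (h1 1 z)) (h2 (w - z - x * z))
  rw [U_mul, U_mul] at this
  exact U_congr this (by ring) (by ring) (by ring)

theorem gen [Infinite K] {P : M4 K → Prop} (hm : ∀ {A B}, P A → P B → P (A * B))
    (x0 : ∀ t, P (X t)) (y0 : ∀ t, P (X t)ᵀ) (x1 : ∀ t, P (U t 0 0)) (y1 : ∀ t, P (U t 0 0)ᵀ)
    (M : M4 K) (h : S M) : P M := by
  have u := up hm x0 x1
  have v : ∀ x z w, P (U x z w)ᵀ := up (P := fun M => P Mᵀ)
    (fun a b => by simpa only [transpose_mul] using hm b a) y0 y1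
  have red : ∀ {H H' M : M4 K}, P H' → H' * H = 1 → P (H * M) → P M := fun a b c => by
    have := hm a c
    rwa [← Matrix.mul_assoc, b, Matrix.one_mul] at this
  have ru : ∀ {M : M4 K} (x z w : K), P (U x z w * M) → P M := fun x z w =>
    red (u _ _ _) (U_inv x z w)
  have rv : ∀ {M : M4 K} (x z w : K), P ((U x z w)ᵀ * M) → P M := fun x z w =>
    red (v _ _ _) (U_inv' x z w)
  have a1 : ∀ M : M4 K, S M → M 0 0 = 1 → M 1 0 = 0 → M 2 0 = 0 → M 3 0 = 0 → M 0 1 = 0 →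
      M 2 1 = 0 → M 3 1 = 0 → M 3 2 ≠ 0 → P M := fun M h a b c d a' c' d' e => by
    have e1 := h.eq 0 1
    have e2 := h.eq 0 2
    have e3 := h.eq 0 3
    have e4 := h.eq 1 2
    have e5 := h.eq 1 3
    have e6 := h.eq 2 3
    simp [J, a, b, c, d, a', c', d'] at e1 e2 e3 e4 e5 e6
    simp [e1] at e4 e5
    simp [e2, e3] at e6
    have := hm (x0 ((M 2 2 - 1) / M 3 2)) (hm (y0 (M 3 2)) (x0 ((M 3 3 - 1) / M 3 2)))
    refine Eq.mp (congrArg P (ext4 fun j => ?_)) this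
    obtain ⟨p, q, r, s⟩ := X_row ((M 2 2 - 1) / M 3 2) ((X (M 3 2))ᵀ * X ((M 3 3 - 1) / M 3 2)) j
    obtain ⟨p', q', r', s'⟩ := X_row' (M 3 2) (X ((M 3 3 - 1) / M 3 2)) j
    rw [p, q, r, s, p', q', r', s']
    fin_cases j <;> simp [X, a, b, c, d, a', c', d', e1, e2, e3, e4, e5]
    · field_simp
      ring
    · constructor
      · field_simp
        linear_combination e6
      · field_simp
        ring
  have a2 : ∀ M : M4 K, S M → M 0 0 = 1 → M 1 0 = 0 → M 2 0 = 0 → M 3 0 = 0 → M 0 1 = 0 →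
      M 2 1 = 0 → M 3 1 = 0 → P M := fun M h a b c d a' c' d' => by
    by_cases e : M 3 2 = 0
    · have r := X_row' 1 M
      refine red (y0 _) (X_inv' 1) (a1 _ ((S_X' 1).mul h) ?_ ?_ ?_ ?_ ?_ ?_ ?_ ?_) <;>
        simp only [r, a, b, c, d, a', c', d', e, mul_zero, add_zero, one_mul]
      intro e'
      have e2 := h.eq 0 2
      have e3 := h.eq 0 3
      have e6 := h.eq 2 3
      simp [J, a, b, c, d] at e2 e3
      simp [J, e, e', e2, e3] at e6
    · exact a1 M h a b c d a' c' d' e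
  have a3 : ∀ M : M4 K, S M → M 0 0 = 1 → M 1 0 = 0 → M 2 0 = 0 → M 3 0 = 0 → P M :=
    fun M h a b c d => by
    have e1 := h.eq 0 1
    simp [J, a, b, c, d] at e1
    have r := U_row (M 3 1) (-M 2 1) (-M 0 1) M
    refine ru (M 3 1) (-M 2 1) (-M 0 1) (a2 _ ((S_U _ _ _).mul h) ?_ ?_ ?_ ?_ ?_ ?_ ?_) <;>
      simp only [r, a, b, c, d, e1] <;> ring
  have a4 : ∀ M : M4 K, S M → M 0 0 = 1 → P M := fun M h a => by
    have r := U_row' (-M 2 0) (-M 3 0) (-M 1 0) M
    refine rv (-M 2 0) (-M 3 0) (-M 1 0) (a3 _ ((S_U' _ _ _).mul h) ?_ ?_ ?_ ?_) <;>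
      simp only [r, a] <;> ring
  have a5 : ∀ M : M4 K, S M → M 1 0 ≠ 0 → P M := fun M h a => by
    refine ru 0 0 ((1 - M 0 0) / M 1 0) (a4 _ ((S_U _ _ _).mul h) ?_)
    rw [(U_row _ _ _ M 0).1]
    field_simp
    ring
  have a6 : ∀ x z w : K, w * M 0 0 + M 1 0 + z * M 2 0 + -x * M 3 0 ≠ 0 → P M := fun x z w e =>
    rv x z w (a5 _ ((S_U' _ _ _).mul h) (by rwa [(U_row' _ _ _ M 0).2.1]))
  by_contra n
  have b1 : M 1 0 = 0 := by_contra fun e => n (a5 M h e)
  have b0 : M 0 0 = 0 := by_contra fun e => n (a6 0 0 1 (by simpa [b1] using e))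
  have b2 : M 2 0 = 0 := by_contra fun e => n (a6 0 1 0 (by simpa [b1] using e))
  have b3 : M 3 0 = 0 := by_contra fun e => n (a6 1 0 0 (by simpa [b1] using e))
  simpa [J, b0, b1, b2, b3] using h.eq 0 1

end Vale.Agent.P011UG12
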